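import Mathlib

namespace Vale.Agent.P042

/-- `A ⊆ [N]` has no difference equal to a nonzero value `h(n)`, `n ≥ 1`. -/
def Avoids (h : Polynomial ℤ) (N : ℕ) (A : Finset ℤ) : Prop :=
  A ⊆ Finset.Icc (1 : ℤ) (N : ℤ) ∧
    ∀ a ∈ A, ∀ b ∈ A, ∀ n : ℕ, 1 ≤ n → a - b = h.eval (n : ℤ) → a - b = 0

/-- `r_h(N)`: the largest size of such a set. -/
noncomputable def r (h : Polynomial ℤ) (N : ℕ) : ℕ :=
  sSup {m : ℕ | ∃ A : Finset ℤ, Avoids h N A ∧ A.card = m}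

end Vale.Agent.P042
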