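import Vale.Agent.P042.Defs

namespace Vale.Agent.P042
open Finset

def Good (q r k : ℕ) : Prop :=
  0 < q ∧ ∃ (R : Finset ℕ) (h : ℕ → ℕ), (∀ x ∈ R, x < q ^ 2) ∧ r ≤ R.card ∧ (∀ x ∈ R, h x < k) ∧
    ∀ x ∈ R, ∀ y ∈ R, x ≠ y → ∀ s : ℤ, (q : ℤ) ^ 2 ∣ (y : ℤ) - x - s ^ 2 → h x < h y

lemma Good.mono {q r k r' k' : ℕ} (H : Good q r k) (hr : r' ≤ r) (hk : k ≤ k') : Good q r' k' := by
  obtain ⟨hq, R, h, h1, h2, h3, h4⟩ := H
  exact ⟨hq, R, h, h1, hr.trans h2, fun x hx => (h3 x hx).trans_le hk, h4⟩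

lemma card_pair {A B : Finset ℕ} {m : ℕ} (hA : ∀ x ∈ A, x < m) :
    ((A ×ˢ B).image (fun p : ℕ × ℕ => p.1 + m * p.2)).card = A.card * B.card := by
  rw [card_image_of_injOn, card_product]
  rintro ⟨a, b⟩ hab ⟨c, d⟩ hcd he
  simp only [coe_product, Set.mem_prod, mem_coe] at hab hcd
  have ha := hA a hab.1
  have hc := hA c hcd.1
  have e1 : (a + m * b) % m = (c + m * d) % m := by simp only at he; rw [he]
  rw [Nat.add_mul_mod_self_left, Nat.add_mul_mod_self_left, Nat.mod_eq_of_lt ha,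
    Nat.mod_eq_of_lt hc] at e1
  subst e1
  simp only [add_right_inj] at he
  have : b = d := Nat.eq_of_mul_eq_mul_left (by omega) he
  rw [this]

lemma Good.lex {q1 r1 k1 q2 r2 k2 : ℕ} (H1 : Good q1 r1 k1) (H2 : Good q2 r2 k2) :
    Good (q1 * q2) (r1 * r2) (k1 * k2) := by
  obtain ⟨hq1, R1, h1, a1, b1, c1, d1⟩ := H1
  obtain ⟨hq2, R2, h2, a2, b2, c2, d2⟩ := H2
  have hm : 0 < q1 ^ 2 := by positivity
  have hmod : ∀ a ∈ R1, ∀ b : ℕ, (a + q1 ^ 2 * b) % q1 ^ 2 = a := fun a ha b => by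
    rw [Nat.add_mul_mod_self_left, Nat.mod_eq_of_lt (a1 a ha)]
  have hdiv : ∀ a ∈ R1, ∀ b : ℕ, (a + q1 ^ 2 * b) / q1 ^ 2 = b := fun a ha b => by
    rw [Nat.add_mul_div_left _ _ hm, Nat.div_eq_of_lt (a1 a ha), zero_add]
  refine ⟨by positivity, (R1 ×ˢ R2).image (fun p : ℕ × ℕ => p.1 + q1 ^ 2 * p.2),
    fun z => h1 (z % q1 ^ 2) * k2 + h2 (z / q1 ^ 2), ?_, ?_, ?_, ?_⟩
  · intro x hx
    obtain ⟨⟨a, b⟩, hab, rfl⟩ := mem_image.1 hx
    rw [mem_product] at hab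
    have := a1 a hab.1
    have h' : b + 1 ≤ q2 ^ 2 := a2 b hab.2
    have := Nat.mul_le_mul_left (q1 ^ 2) h'
    simp only
    rw [mul_pow]; nlinarith
  · rw [card_pair a1]; exact Nat.mul_le_mul b1 b2
  · intro x hx
    obtain ⟨⟨a, b⟩, hab, rfl⟩ := mem_image.1 hx
    rw [mem_product] at hab
    simp only [hmod a hab.1, hdiv a hab.1]
    have h' : h1 a + 1 ≤ k1 := c1 a hab.1
    have := c2 b hab.2
    have := Nat.mul_le_mul_right k2 h'
    nlinarith
  · intro x hx y hy hxy s hs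
    obtain ⟨⟨a, b⟩, hab, rfl⟩ := mem_image.1 hx
    obtain ⟨⟨c, d⟩, hcd, rfl⟩ := mem_image.1 hy
    rw [mem_product] at hab hcd
    simp only [hmod a hab.1, hdiv a hab.1, hmod c hcd.1, hdiv c hcd.1]
    simp only at hxy hs
    push_cast at hs
    obtain ⟨t, ht⟩ := hs
    by_cases hac : a = c
    · subst hac
      have hbd : b ≠ d := fun e => hxy (by rw [e])
      have hq : (q1 : ℤ) ^ 2 ∣ s ^ 2 := ⟨d - b - q2 ^ 2 * t, by linear_combination -ht⟩
      obtain ⟨u, rfl⟩ := (Int.pow_dvd_pow_iff (by norm_num)).1 hq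
      have hq0 : (q1 : ℤ) ^ 2 ≠ 0 := by positivity
      have : (d : ℤ) - b - u ^ 2 = q2 ^ 2 * t := by
        apply mul_left_cancel₀ hq0
        linear_combination ht
      have := d2 b hab.2 d hcd.2 hbd u ⟨t, this⟩
      omega
    · have h' : h1 a + 1 ≤ h1 c :=
        d1 a hab.1 c hcd.1 hac s ⟨q2 ^ 2 * t + b - d, by linear_combination ht⟩
      have := c2 b hab.2
      have := Nat.mul_le_mul_right k2 h'
      nlinarith

lemma good_one : Good 1 1 1 := by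
  refine ⟨one_pos, {0}, fun _ => 0, by simp, by simp, by simp, ?_⟩
  intro x hx y hy hxy
  simp only [mem_singleton] at hx hy
  exact absurd (hx.trans hy.symm) hxy

lemma Good.pow {q r k : ℕ} (H : Good q r k) (n : ℕ) : Good (q ^ n) (r ^ n) (k ^ n) := by
  induction n with
  | zero => simpa using good_one
  | succ n ih => rw [pow_succ, pow_succ, pow_succ]; exact ih.lex H

lemma dvd_mod_sub {m x y : ℕ} {s : ℤ} (h : (m : ℤ) ∣ (y : ℤ) - x - s) :
    (m : ℤ) ∣ ((y % m : ℕ) : ℤ) - ((x % m : ℕ) : ℤ) - s := by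
  obtain ⟨t, ht⟩ := h
  have e1 : (y : ℤ) = (y % m : ℕ) + m * (y / m : ℕ) := by exact_mod_cast (Nat.mod_add_div y m).symm
  have e2 : (x : ℤ) = (x % m : ℕ) + m * (x / m : ℕ) := by exact_mod_cast (Nat.mod_add_div x m).symm
  exact ⟨t - (y / m : ℕ) + (x / m : ℕ), by linear_combination ht - e1 + e2⟩

lemma Good.crt {q1 r1 k1 q2 r2 k2 : ℕ} (H1 : Good q1 r1 k1) (H2 : Good q2 r2 k2)
    (co : q1.Coprime q2) : Good (q1 * q2) (r1 * r2) (k1 + k2) := by
  obtain ⟨hq1, R1, h1, a1, b1, c1, d1⟩ := H1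
  obtain ⟨hq2, R2, h2, a2, b2, c2, d2⟩ := H2
  have co2 : (q1 ^ 2).Coprime (q2 ^ 2) := Nat.Coprime.pow 2 2 co
  refine ⟨by positivity,
    (range ((q1 * q2) ^ 2)).filter (fun z => z % q1 ^ 2 ∈ R1 ∧ z % q2 ^ 2 ∈ R2),
    fun z => h1 (z % q1 ^ 2) + h2 (z % q2 ^ 2), ?_, ?_, ?_, ?_⟩
  · intro x hx; exact mem_range.1 (mem_filter.1 hx).1
  · refine (Nat.mul_le_mul b1 b2).trans ?_
    rw [← card_product]
    have e1 : ∀ p ∈ R1 ×ˢ R2, (Nat.chineseRemainder co2 p.1 p.2 : ℕ) % q1 ^ 2 = p.1 := by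
      intro p hp
      have := (Nat.chineseRemainder co2 p.1 p.2).2.1
      rw [Nat.ModEq, Nat.mod_eq_of_lt (a1 _ (mem_product.1 hp).1)] at this
      exact this
    have e2 : ∀ p ∈ R1 ×ˢ R2, (Nat.chineseRemainder co2 p.1 p.2 : ℕ) % q2 ^ 2 = p.2 := by
      intro p hp
      have := (Nat.chineseRemainder co2 p.1 p.2).2.2
      rw [Nat.ModEq, Nat.mod_eq_of_lt (a2 _ (mem_product.1 hp).2)] at this
      exact this
    apply card_le_card_of_injOn (fun p : ℕ × ℕ => (Nat.chineseRemainder co2 p.1 p.2 : ℕ))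
    · intro p hp
      have hp' : p ∈ R1 ×ˢ R2 := hp
      simp only [coe_filter, mem_range, Set.mem_setOf_eq]
      rw [e1 p hp', e2 p hp', mul_pow]
      exact ⟨Nat.chineseRemainder_lt_mul co2 _ _ (by positivity) (by positivity),
        (mem_product.1 hp').1, (mem_product.1 hp').2⟩
    · intro p hp p' hp' he
      have i1 := e1 p hp
      have i2 := e2 p hp
      have j1 := e1 p' hp'
      have j2 := e2 p' hp'
      simp only at he
      rw [he] at i1 i2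
      exact Prod.ext (i1.symm.trans j1) (i2.symm.trans j2)
  · intro x hx
    have := (mem_filter.1 hx).2
    have := c1 _ this.1
    have := c2 _ (mem_filter.1 hx).2.2
    simp only
    omega
  · intro x hx y hy hxy s hs
    obtain ⟨hx0, hx1, hx2⟩ := mem_filter.1 hx
    obtain ⟨hy0, hy1, hy2⟩ := mem_filter.1 hy
    have s1 : (q1 : ℤ) ^ 2 ∣ ((y % q1 ^ 2 : ℕ) : ℤ) - ((x % q1 ^ 2 : ℕ) : ℤ) - s ^ 2 := by
      have := @dvd_mod_sub (q1 ^ 2) x y (s ^ 2)
        (Dvd.dvd.trans ⟨(q2 : ℤ) ^ 2, by push_cast; ring⟩ hs)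
      exact_mod_cast this
    have s2 : (q2 : ℤ) ^ 2 ∣ ((y % q2 ^ 2 : ℕ) : ℤ) - ((x % q2 ^ 2 : ℕ) : ℤ) - s ^ 2 := by
      have := @dvd_mod_sub (q2 ^ 2) x y (s ^ 2)
        (Dvd.dvd.trans ⟨(q1 : ℤ) ^ 2, by push_cast; ring⟩ hs)
      exact_mod_cast this
    by_cases e1 : x % q1 ^ 2 = y % q1 ^ 2
    · by_cases e2 : x % q2 ^ 2 = y % q2 ^ 2
      · exfalso
        have : x ≡ y [MOD q1 ^ 2 * q2 ^ 2] := (Nat.modEq_and_modEq_iff_modEq_mul co2).1 ⟨e1, e2⟩
        rw [← mul_pow, Nat.ModEq, Nat.mod_eq_of_lt (mem_range.1 hx0),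
          Nat.mod_eq_of_lt (mem_range.1 hy0)] at this
        exact hxy this
      · have := d2 _ hx2 _ hy2 e2 s s2
        simp only [e1]; omega
    · have := d1 _ hx1 _ hy1 e1 s s1
      by_cases e2 : x % q2 ^ 2 = y % q2 ^ 2
      · simp only [e2]; omega
      · have := d2 _ hx2 _ hy2 e2 s s2
        simp only
        omega

lemma Good.level {q r k b : ℕ} (H : Good q r k) (hk : 0 < k) (hb : k * b ≤ r) : Good q b 1 := by
  obtain ⟨hq, R, h, h1, h2, h3, h4⟩ := H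
  obtain ⟨v, _, hv⟩ := exists_le_card_fiber_of_mul_le_card_of_maps_to (s := R) (t := range k)
    (f := h) (n := b) (fun x hx => mem_range.2 (h3 x hx)) ⟨0, mem_range.2 hk⟩
    (by rw [card_range]; exact hb.trans h2)
  refine ⟨hq, R.filter (fun x => h x = v), fun _ => 0, fun x hx => h1 x (mem_filter.1 hx).1, hv,
    fun _ _ => one_pos, ?_⟩
  intro x hx y hy hxy s hs
  have := h4 x (mem_filter.1 hx).1 y (mem_filter.1 hy).1 hxy s hs
  rw [(mem_filter.1 hx).2, (mem_filter.1 hy).2] at this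
  exact absurd this (lt_irrefl _)

lemma red {m x y : ℕ} {s : ℤ} (hm : 0 < m) (hy : y < m) (h : (m : ℤ) ∣ (y : ℤ) - x - s ^ 2) :
    ∃ t < m, (x + t * t) % m = y ∧ (m : ℤ) ∣ s - t := by
  have hm' : (0 : ℤ) < m := by exact_mod_cast hm
  obtain ⟨t, ht⟩ : ∃ t : ℕ, (t : ℤ) = s % m := ⟨(s % m).toNat, Int.toNat_of_nonneg (Int.emod_nonneg _ hm'.ne')⟩
  have htm : t < m := by
    have := Int.emod_lt_of_pos s hm'
    omega
  have e : s = t + m * (s / m) := by rw [ht]; exact (Int.emod_add_mul_ediv s m).symm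
  refine ⟨t, htm, ?_, ⟨s / m, by linear_combination e⟩⟩
  obtain ⟨u, hu⟩ := h
  have : x + t * t ≡ y [MOD m] := by
    rw [Nat.modEq_iff_dvd]
    refine ⟨u + 2 * t * (s / m) + m * (s / m) ^ 2, ?_⟩
    push_cast
    generalize s / m = w at *
    subst e
    linear_combination hu
  rw [Nat.ModEq, Nat.mod_eq_of_lt hy] at this
  exact this

lemma base_full (q k : ℕ) (C : Finset ℕ) (g : ℕ → ℕ) (hq : 0 < q)
    (h1 : ∀ c ∈ C, c < q ^ 2 ∧ g c < k)
    (h2 : ∀ c ∈ C, ∀ t < q ^ 2, (c + t * t) % q ^ 2 ∈ C → (c + t * t) % q ^ 2 ≠ c →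
      g c < g ((c + t * t) % q ^ 2)) :
    Good q C.card k := by
  refine ⟨hq, C, g, fun x hx => (h1 x hx).1, le_rfl, fun x hx => (h1 x hx).2, ?_⟩
  intro x hx y hy hxy s hs
  obtain ⟨t, ht, e, -⟩ := red (m := q ^ 2) (x := x) (s := s) (by positivity) (h1 y hy).1
    (by exact_mod_cast hs)
  have := h2 x hx t ht (e ▸ hy) (by rw [e]; exact hxy.symm)
  rwa [e] at this

lemma base_sf (q k : ℕ) (C : Finset ℕ) (g : ℕ → ℕ) (hq : 0 < q)
    (h0 : ∀ t < q, t * t % q = 0 → t = 0)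
    (h1 : ∀ c ∈ C, c < q ∧ g c < k)
    (h2 : ∀ c ∈ C, ∀ t < q, (c + t * t) % q ∈ C → (c + t * t) % q ≠ c →
      g c < g ((c + t * t) % q)) :
    Good q (C.card * q) k := by
  have hmod : ∀ a ∈ C, ∀ b : ℕ, (a + q * b) % q = a := fun a ha b => by
    rw [Nat.add_mul_mod_self_left, Nat.mod_eq_of_lt (h1 a ha).1]
  refine ⟨hq, (C ×ˢ range q).image (fun p : ℕ × ℕ => p.1 + q * p.2), fun z => g (z % q), ?_, ?_, ?_, ?_⟩
  · intro x hx
    obtain ⟨⟨a, b⟩, hab, rfl⟩ := mem_image.1 hx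
    rw [mem_product] at hab
    have := (h1 a hab.1).1
    have h' : b + 1 ≤ q := mem_range.1 hab.2
    have := Nat.mul_le_mul_left q h'
    simp only
    nlinarith
  · rw [card_pair (fun x hx => (h1 x hx).1), card_range]
  · intro x hx
    obtain ⟨⟨a, b⟩, hab, rfl⟩ := mem_image.1 hx
    rw [mem_product] at hab
    simp only [hmod a hab.1]
    exact (h1 a hab.1).2
  · intro x hx y hy hxy s hs
    obtain ⟨⟨a, b⟩, hab, rfl⟩ := mem_image.1 hx
    obtain ⟨⟨c, d⟩, hcd, rfl⟩ := mem_image.1 hy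
    rw [mem_product] at hab hcd
    simp only [hmod a hab.1, hmod c hcd.1]
    simp only at hxy hs
    push_cast at hs
    obtain ⟨u, hu⟩ := hs
    by_cases hac : a = c
    · exfalso
      subst hac
      obtain ⟨t, ht, e, w, hw⟩ := red (m := q) (x := 0) (y := 0) (s := s) hq hq
        ⟨q * u + b - d, by push_cast; linear_combination hu⟩
      rw [zero_add] at e
      have := h0 t ht e
      subst this
      have hs : s = q * w := by simpa using hw
      subst hs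
      have hq0 : (q : ℤ) ≠ 0 := by positivity
      have e2 : (d : ℤ) - b = q * (u + w ^ 2) := by
        apply mul_left_cancel₀ hq0
        linear_combination hu
      have : b ≡ d [MOD q] := (Nat.modEq_iff_dvd).2 ⟨_, e2⟩
      rw [Nat.ModEq, Nat.mod_eq_of_lt (mem_range.1 hab.2), Nat.mod_eq_of_lt (mem_range.1 hcd.2)] at this
      exact hxy (by simp only at this; rw [this])
    · obtain ⟨t, ht, e, -⟩ := red (m := q) (x := a) (y := c) (s := s) hq (h1 c hcd.1).1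
        ⟨q * u + b - d, by linear_combination hu⟩
      have := h2 a hab.1 t ht (e ▸ hcd.1) (by rw [e]; exact Ne.symm hac)
      rwa [e] at this

def gl (L : List (ℕ × ℕ)) (c : ℕ) : ℕ := (L.lookup c).getD 0

lemma g3 : Good 3 (2 * 3) 2 :=
  base_sf 3 2 {0, 1} (fun c => [0, 1].idxOf c) (by decide) (by decide) (by decide) (by decide)
lemma g7 : Good 7 (3 * 7) 3 :=
  base_sf 7 3 {0, 1, 2} (fun c => [0, 1, 2].idxOf c) (by decide) (by decide) (by decide) (by decide)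
lemma g11 : Good 11 (4 * 11) 4 :=
  base_sf 11 4 {0, 1, 4, 5} (fun c => [0, 1, 4, 5].idxOf c) (by decide) (by decide) (by decide)
    (by decide +kernel)
lemma g19 : Good 19 (5 * 19) 5 :=
  base_sf 19 5 {0, 1, 6, 17, 7} (fun c => [0, 1, 6, 17, 7].idxOf c) (by decide) (by decide +kernel)
    (by decide +kernel) (by decide +kernel)
lemma g31 : Good 31 (7 * 31) 7 :=
  base_sf 31 7 {0, 1, 8, 5, 2, 9, 10} (fun c => [0, 1, 8, 5, 2, 9, 10].idxOf c) (by decide)
    (by decide +kernel) (by decide +kernel) (by decide +kernel)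
lemma g43 : Good 43 (7 * 43) 7 :=
  base_sf 43 7 {0, 1, 10, 14, 11, 24, 25} (fun c => [0, 1, 10, 14, 11, 24, 25].idxOf c) (by decide)
    (by decide +kernel) (by decide +kernel) (by decide +kernel)
lemma g47 : Good 47 (7 * 47) 7 :=
  base_sf 47 7 {0, 1, 3, 9, 37, 17, 4} (fun c => [0, 1, 3, 9, 37, 17, 4].idxOf c) (by decide)
    (by decide +kernel) (by decide +kernel) (by decide +kernel)
lemma g59 : Good 59 (9 * 59) 9 :=
  base_sf 59 9 {0, 1, 20, 29, 27, 21, 46, 49, 36}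
    (fun c => [0, 1, 20, 29, 27, 21, 46, 49, 36].idxOf c) (by decide)
    (by decide +kernel) (by decide +kernel) (by decide +kernel)
lemma g71 : Good 71 (9 * 71) 9 :=
  base_sf 71 9 {0, 1, 37, 20, 6, 30, 9, 49, 38}
    (fun c => [0, 1, 37, 20, 6, 30, 9, 49, 38].idxOf c) (by decide)
    (by decide +kernel) (by decide +kernel) (by decide +kernel)
lemma g79 : Good 79 (9 * 79) 9 :=
  base_sf 79 9 {0, 1, 19, 5, 50, 2, 51, 21, 23}
    (fun c => [0, 1, 19, 5, 50, 2, 51, 21, 23].idxOf c) (by decide)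
    (by decide +kernel) (by decide +kernel) (by decide +kernel)
lemma g103 : Good 103 (11 * 103) 11 :=
  base_sf 103 11 {0, 1, 29, 92, 2, 61, 17, 30, 93, 18, 19}
    (fun c => [0, 1, 29, 92, 2, 61, 17, 30, 93, 18, 19].idxOf c) (by decide)
    (by decide +kernel) (by decide +kernel) (by decide +kernel)
lemma g115 : Good 115 (12 * 115) 6 :=
  (base_sf 115 6 {10, 12, 23, 39, 41, 44, 45, 48, 80, 82, 93, 101}
    (gl [(10,1), (12,2), (23,1), (39,2), (41,3), (44,0), (45,4), (48,5), (80,5), (82,4), (93,3),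
      (101,0)]) (by decide)
    (by decide +kernel) (by decide +kernel) (by decide +kernel)).mono (by decide +kernel) le_rfl
lemma g4 : Good 4 10 6 :=
  base_full 4 6 {0, 1, 3, 6, 7, 8, 9, 11, 12, 14}
    (gl [(0,4), (1,5), (3,0), (6,0), (7,1), (8,2), (9,5), (11,2), (12,3), (14,0)]) (by decide)
    (by decide +kernel) (by decide +kernel)

lemma final : ∃ q, q ^ 2 ≤ 2 ^ 47411 ∧ Good q (2 ^ 35587) 1 := by
  have H := ((((((((((((g3.pow 1000).crt (g7.pow 630) (by decide +kernel)).crt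
    (g11.pow 500) (by decide +kernel)).crt (g19.pow 430) (by decide +kernel)).crt
    (g31.pow 356) (by decide +kernel)).crt (g43.pow 356) (by decide +kernel)).crt
    (g47.pow 356) (by decide +kernel)).crt (g59.pow 315) (by decide +kernel)).crt
    (g71.pow 315) (by decide +kernel)).crt (g79.pow 315) (by decide +kernel)).crt
    (g103.pow 289) (by decide +kernel)).crt (g115.pow 386) (by decide +kernel)).crt
    (g4.pow 386) (by decide +kernel)
  exact ⟨_, by decide +kernel, H.level (by decide +kernel) (by decide +kernel)⟩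

lemma le_r {q b N : ℕ} (H : Good q b 1) (hN : q ^ 2 ≤ N) : b ≤ r (Polynomial.X ^ 2) N := by
  obtain ⟨hq, R, h, h1, h2, h3, h4⟩ := H
  have hbdd : BddAbove {m : ℕ | ∃ A : Finset ℤ, Avoids (Polynomial.X ^ 2) N A ∧ A.card = m} := by
    refine ⟨N, ?_⟩
    rintro m ⟨A, hA, rfl⟩
    have := card_le_card hA.1
    simpa using this
  refine h2.trans (le_csSup hbdd ⟨R.image (fun x : ℕ => (x : ℤ) + 1), ⟨?_, ?_⟩, ?_⟩)
  · intro z hz
    obtain ⟨x, hx, rfl⟩ := mem_image.1 hz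
    have := h1 x hx
    rw [mem_Icc]
    omega
  · intro a ha c hc n _ he
    obtain ⟨x, hx, rfl⟩ := mem_image.1 ha
    obtain ⟨y, hy, rfl⟩ := mem_image.1 hc
    by_contra hne
    have hxy : y ≠ x := fun e => hne (by rw [e]; ring)
    have := h4 y hy x hx hxy n ⟨0, by simp at he; linear_combination he⟩
    have := h3 x hx
    omega
  · apply card_image_of_injective
    intro x y e
    simpa using e

theorem main : ∃ c : ℝ, 0 < c ∧ ∀ N : ℕ, 1 ≤ N →
    c * (N : ℝ) ^ (0.7506 : ℝ) ≤ (r (Polynomial.X ^ 2) N : ℝ) := by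
  obtain ⟨q, hq, H⟩ := final
  obtain ⟨a, ha⟩ : ∃ a : ℕ, a = 47411 := ⟨_, rfl⟩
  obtain ⟨b, hb⟩ : ∃ b : ℕ, b = 35587 := ⟨_, rfl⟩
  rw [← ha] at hq
  rw [← hb] at H
  have hab : (a : ℝ) * 0.7506 ≤ b := by rw [ha, hb]; norm_num
  have ha1 : 1 < 2 ^ a := Nat.one_lt_two_pow (by omega)
  refine ⟨1 / 2 ^ b, by positivity, fun N hN => ?_⟩
  obtain ⟨n, hn⟩ : ∃ n, n = Nat.log (2 ^ a) N := ⟨_, rfl⟩
  have l1 : (2 ^ a) ^ n ≤ N := hn ▸ Nat.pow_log_le_self _ (by omega)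
  have l2 : N < (2 ^ a) ^ (n + 1) := hn ▸ Nat.lt_pow_succ_log_self ha1 N
  have G := H.pow n
  rw [one_pow] at G
  have l3 := le_r G (N := N) (by
    rw [← pow_mul, mul_comm, pow_mul]
    exact (Nat.pow_le_pow_left hq n).trans l1)
  have l4 : (((2 ^ b) ^ n : ℕ) : ℝ) ≤ r (Polynomial.X ^ 2) N := by exact_mod_cast l3
  refine le_trans ?_ l4
  have l5 : (N : ℝ) ≤ (2 : ℝ) ^ ((a * (n + 1) : ℕ) : ℝ) := by
    rw [Real.rpow_natCast, pow_mul]; exact_mod_cast l2.le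
  have l6 : (N : ℝ) ^ (0.7506 : ℝ) ≤ (2 : ℝ) ^ ((b * (n + 1) : ℕ) : ℝ) := by
    refine (Real.rpow_le_rpow (by positivity) l5 (by norm_num)).trans ?_
    rw [← Real.rpow_mul (by norm_num)]
    apply Real.rpow_le_rpow_of_exponent_le (by norm_num)
    push_cast
    have : (0 : ℝ) ≤ n + 1 := by positivity
    nlinarith
  rw [Real.rpow_natCast] at l6
  push_cast
  rw [div_mul_eq_mul_div, one_mul, div_le_iff₀ (by positivity), ← pow_succ, ← pow_mul]
  exact l6

end Vale.Agent.P042
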